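import Mathlib

/-!
# P033: runs of equal signs in the first row of a circulant Hadamard matrix

If `H i j = h (j - i)` (indices mod `n`) is a Hadamard matrix and the first row `h` contains `L`
cyclically consecutive equal signs, then `3 * L ^ 2 ≤ 8 * n`.
-/

namespace Vale.Agent.Results.P033.RunLength

open Finset

variable {n : ℕ} [NeZero n]

/-- window sums have second moment `n * a`. -/
theorem window_sq_sum (h : ZMod n → ℤ) (hpm : ∀ j, h j = 1 ∨ h j = -1)
    (hac : ∀ t : ZMod n, t ≠ 0 → ∑ j, h j * h (j + t) = 0) (a : ℕ) (ha : a ≤ n) :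
    ∑ t : ZMod n, (∑ j ∈ range a, h (t + (j : ZMod n))) ^ 2 = (n : ℤ) * a := by
  have h1 : ∀ j k : ℕ, j ∈ range a → k ∈ range a →
      ∑ t : ZMod n, h (t + (j : ZMod n)) * h (t + (k : ZMod n)) = if j = k then (n : ℤ) else 0 := by
    intro j k hj hk
    have e : ∑ t : ZMod n, h (t + (j : ZMod n)) * h (t + (k : ZMod n))
        = ∑ t : ZMod n, h t * h (t + ((k : ZMod n) - j)) := by
      refine Fintype.sum_equiv (Equiv.addRight (j : ZMod n)) _ _ ?_
      intro t
      simp only [Equiv.coe_addRight]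
      congr 2
      ring
    rw [e]
    split_ifs with hjk
    · subst hjk
      have : ∀ t : ZMod n, h t * h (t + ((j : ZMod n) - j)) = 1 := by
        intro t
        rw [sub_self, add_zero]
        rcases hpm t with h0 | h0 <;> rw [h0] <;> norm_num
      rw [Finset.sum_congr rfl (fun t _ => this t)]
      simp [ZMod.card]
    · apply hac
      intro h0
      apply hjk
      have h2 : (k : ZMod n) = (j : ZMod n) := sub_eq_zero.mp h0
      rw [ZMod.natCast_eq_natCast_iff'] at h2
      have hj' : j < n := lt_of_lt_of_le (mem_range.mp hj) ha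
      have hk' : k < n := lt_of_lt_of_le (mem_range.mp hk) ha
      rw [Nat.mod_eq_of_lt hj', Nat.mod_eq_of_lt hk'] at h2
      exact h2.symm
  calc ∑ t : ZMod n, (∑ j ∈ range a, h (t + (j : ZMod n))) ^ 2
      = ∑ t : ZMod n, ∑ j ∈ range a, ∑ k ∈ range a,
          h (t + (j : ZMod n)) * h (t + (k : ZMod n)) := by
        refine Finset.sum_congr rfl (fun t _ => ?_)
        rw [sq, Finset.sum_mul_sum]
    _ = ∑ j ∈ range a, ∑ k ∈ range a, ∑ t : ZMod n,
          h (t + (j : ZMod n)) * h (t + (k : ZMod n)) := by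
        rw [Finset.sum_comm]
        refine Finset.sum_congr rfl (fun j _ => ?_)
        rw [Finset.sum_comm]
    _ = ∑ j ∈ range a, ∑ k ∈ range a, (if j = k then (n : ℤ) else 0) := by
        refine Finset.sum_congr rfl (fun j hj => ?_)
        exact Finset.sum_congr rfl (fun k hk => h1 j k hj hk)
    _ = ∑ j ∈ range a, (n : ℤ) := by
        refine Finset.sum_congr rfl (fun j hj => ?_)
        rw [Finset.sum_ite_eq]
        simp [hj]
    _ = (n : ℤ) * a := by
        rw [Finset.sum_const, card_range, nsmul_eq_mul]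
        ring

/-- a window whose last `a - p` entries equal `e`. -/
theorem window_low_right (x : ℕ → ℤ) (e : ℤ) (he : e = 1 ∨ e = -1)
    (hx : ∀ k, x k = 1 ∨ x k = -1) (m p q : ℕ)
    (hrun : ∀ j, p ≤ j → j < p + q → x (m + j) = e) :
    (q : ℤ) - p ≤ e * ∑ j ∈ range (p + q), x (m + j) := by
  rw [Finset.sum_range_add, mul_add, Finset.mul_sum, Finset.mul_sum]
  have h1 : -(p : ℤ) ≤ ∑ j ∈ range p, e * x (m + j) := by
    have : ∑ j ∈ range p, (-1 : ℤ) ≤ ∑ j ∈ range p, e * x (m + j) := by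
      refine Finset.sum_le_sum (fun j _ => ?_)
      rcases he with h0 | h0 <;> rcases hx (m + j) with h3 | h3 <;> rw [h0, h3] <;> norm_num
    simpa using this
  have h2 : ∑ j ∈ range q, e * x (m + (p + j)) = q := by
    have : ∀ j ∈ range q, e * x (m + (p + j)) = 1 := by
      intro j hj
      rw [hrun (p + j) (Nat.le_add_right _ _) (by have := mem_range.mp hj; omega)]
      rcases he with h0 | h0 <;> rw [h0] <;> norm_num
    rw [Finset.sum_congr rfl this]
    simp
  linarith

/-- a window whose first `q` entries equal `e`. -/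
theorem window_low_left (x : ℕ → ℤ) (e : ℤ) (he : e = 1 ∨ e = -1)
    (hx : ∀ k, x k = 1 ∨ x k = -1) (m p q : ℕ)
    (hrun : ∀ j, j < q → x (m + j) = e) :
    (q : ℤ) - p ≤ e * ∑ j ∈ range (q + p), x (m + j) := by
  rw [Finset.sum_range_add, mul_add, Finset.mul_sum, Finset.mul_sum]
  have h1 : -(p : ℤ) ≤ ∑ j ∈ range p, e * x (m + (q + j)) := by
    have : ∑ j ∈ range p, (-1 : ℤ) ≤ ∑ j ∈ range p, e * x (m + (q + j)) := by
      refine Finset.sum_le_sum (fun j _ => ?_)
      rcases he with h0 | h0 <;> rcases hx (m + (q + j)) with h3 | h3 <;> rw [h0, h3] <;> norm_num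
    simpa using this
  have h2 : ∑ j ∈ range q, e * x (m + j) = q := by
    have : ∀ j ∈ range q, e * x (m + j) = 1 := by
      intro j hj
      rw [hrun j (mem_range.mp hj)]
      rcases he with h0 | h0 <;> rw [h0] <;> norm_num
    rw [Finset.sum_congr rfl this]
    simp
  linarith

theorem sq_ge_of_signed (e W c : ℤ) (he : e = 1 ∨ e = -1) (hc : 0 ≤ c) (h : c ≤ e * W) :
    c ^ 2 ≤ W ^ 2 := by
  rcases he with h0 | h0 <;> rw [h0] at h <;> nlinarith

theorem sum_even_sq (c : ℕ) :
    (3 : ℤ) * ∑ m ∈ range c, (2 * (m : ℤ) + 2) ^ 2 = 2 * (c : ℤ) * (c + 1) * (2 * c + 1) := by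
  induction c with
  | zero => simp
  | succ c ih =>
    rw [Finset.sum_range_succ, mul_add, ih]
    push_cast
    ring

/-- the main inequality, for window length `2 * (c + 1)`. -/
theorem main_ineq (h : ZMod n → ℤ) (hpm : ∀ j, h j = 1 ∨ h j = -1)
    (hac : ∀ t : ZMod n, t ≠ 0 → ∑ j, h j * h (j + t) = 0)
    (s : ZMod n) (L : ℕ) (hLn : L ≤ n) (hrun : ∀ j : ℕ, j < L → h (s + (j : ZMod n)) = h s)
    (c : ℕ) (hb : 2 * (c + 1) ≤ L) :
    6 * ((c : ℤ) + 1) * L + 2 ≤ 3 * n + 8 * ((c : ℤ) + 1) ^ 2 := by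
  obtain ⟨d, hd⟩ : ∃ d, L = 2 * (c + 1) + d := Nat.exists_eq_add_of_le hb
  have hxpm : ∀ k : ℕ, h (s - (c : ZMod n) + (k : ZMod n)) = 1 ∨
      h (s - (c : ZMod n) + (k : ZMod n)) = -1 := fun k => hpm _
  have hxrun : ∀ k : ℕ, c ≤ k → k < c + L → h (s - (c : ZMod n) + (k : ZMod n)) = h s := by
    intro k hk1 hk2
    obtain ⟨j, rfl⟩ := Nat.exists_eq_add_of_le hk1
    have e1 : s - (c : ZMod n) + ((c + j : ℕ) : ZMod n) = s + (j : ZMod n) := by
      push_cast
      ring
    rw [e1]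
    exact hrun j (by omega)
  have hsum : ∑ m ∈ range (c + (d + 1) + c),
      (∑ j ∈ range (2 * (c + 1)), h (s - (c : ZMod n) + ((m + j : ℕ) : ZMod n))) ^ 2
      ≤ (n : ℤ) * ((2 * (c + 1) : ℕ) : ℤ) := by
    rw [← window_sq_sum h hpm hac (2 * (c + 1)) (by omega)]
    have hinj : Set.InjOn (fun m : ℕ => s - (c : ZMod n) + (m : ZMod n))
        (range (c + (d + 1) + c) : Set ℕ) := by
      intro m1 hm1 m2 hm2 h12
      have h2 : (m1 : ZMod n) = (m2 : ZMod n) := add_left_cancel h12
      rw [ZMod.natCast_eq_natCast_iff'] at h2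
      have h1' : m1 < n := by
        have := mem_range.mp (Finset.mem_coe.mp hm1)
        omega
      have h2' : m2 < n := by
        have := mem_range.mp (Finset.mem_coe.mp hm2)
        omega
      rw [Nat.mod_eq_of_lt h1', Nat.mod_eq_of_lt h2'] at h2
      exact h2
    calc ∑ m ∈ range (c + (d + 1) + c),
          (∑ j ∈ range (2 * (c + 1)), h (s - (c : ZMod n) + ((m + j : ℕ) : ZMod n))) ^ 2
        = ∑ t ∈ (range (c + (d + 1) + c)).image (fun m : ℕ => s - (c : ZMod n) + (m : ZMod n)),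
            (∑ j ∈ range (2 * (c + 1)), h (t + (j : ZMod n))) ^ 2 := by
          rw [Finset.sum_image hinj]
          refine Finset.sum_congr rfl (fun m _ => ?_)
          congr 1
          refine Finset.sum_congr rfl (fun j _ => ?_)
          congr 1
          push_cast
          ring
      _ ≤ ∑ t : ZMod n, (∑ j ∈ range (2 * (c + 1)), h (t + (j : ZMod n))) ^ 2 :=
          Finset.sum_le_univ_sum_of_nonneg (fun t => sq_nonneg _)
  have hleft : ∀ m ∈ range c, (2 * (m : ℤ) + 2) ^ 2 ≤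
      (∑ j ∈ range (2 * (c + 1)), h (s - (c : ZMod n) + ((m + j : ℕ) : ZMod n))) ^ 2 := by
    intro m hm
    have hm' := mem_range.mp hm
    apply sq_ge_of_signed (h s) _ _ (hpm s) (by positivity)
    have h0 := window_low_right (fun k : ℕ => h (s - (c : ZMod n) + (k : ZMod n))) (h s) (hpm s)
      hxpm m (c - m) (c + 2 + m) (by
        intro j hj1 hj2
        exact hxrun (m + j) (by omega) (by omega))
    have e1 : c - m + (c + 2 + m) = 2 * (c + 1) := by omega
    rw [e1] at h0
    have e2 : ((c - m : ℕ) : ℤ) = (c : ℤ) - m := by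
      rw [Nat.cast_sub (le_of_lt hm')]
    rw [e2] at h0
    push_cast at h0 ⊢
    linarith
  have hmid : ∀ i ∈ range (d + 1), (2 * ((c : ℤ) + 1)) ^ 2 ≤
      (∑ j ∈ range (2 * (c + 1)), h (s - (c : ZMod n) + ((c + i + j : ℕ) : ZMod n))) ^ 2 := by
    intro i hi
    have hi' := mem_range.mp hi
    apply sq_ge_of_signed (h s) _ _ (hpm s) (by positivity)
    have h0 := window_low_left (fun k : ℕ => h (s - (c : ZMod n) + (k : ZMod n))) (h s) (hpm s)
      hxpm (c + i) 0 (2 * (c + 1)) (by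
        intro j hj1
        exact hxrun (c + i + j) (by omega) (by omega))
    rw [add_zero] at h0
    push_cast at h0 ⊢
    linarith
  have hright : ∀ i ∈ range c, (2 * ((c - 1 - i : ℕ) : ℤ) + 2) ^ 2 ≤
      (∑ j ∈ range (2 * (c + 1)),
        h (s - (c : ZMod n) + ((c + (d + 1) + i + j : ℕ) : ZMod n))) ^ 2 := by
    intro i hi
    have hi' := mem_range.mp hi
    apply sq_ge_of_signed (h s) _ _ (hpm s) (by positivity)
    have h0 := window_low_left (fun k : ℕ => h (s - (c : ZMod n) + (k : ZMod n))) (h s) (hpm s)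
      hxpm (c + (d + 1) + i) (1 + i) (2 * c + 1 - i) (by
        intro j hj1
        exact hxrun (c + (d + 1) + i + j) (by omega) (by omega))
    have e1 : 2 * c + 1 - i + (1 + i) = 2 * (c + 1) := by omega
    rw [e1] at h0
    have e2 : ((2 * c + 1 - i : ℕ) : ℤ) = 2 * (c : ℤ) + 1 - i := by
      rw [Nat.cast_sub (by omega)]
      push_cast
      ring
    have e3 : ((c - 1 - i : ℕ) : ℤ) = (c : ℤ) - 1 - i := by
      rw [Nat.sub_sub, Nat.cast_sub (by omega)]
      push_cast
      ring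
    rw [e2] at h0
    rw [e3]
    push_cast at h0 ⊢
    linarith
  have hS := sum_even_sq c
  have hrefl : ∑ i ∈ range c, (2 * ((c - 1 - i : ℕ) : ℤ) + 2) ^ 2
      = ∑ m ∈ range c, (2 * (m : ℤ) + 2) ^ 2 :=
    Finset.sum_range_reflect (fun m : ℕ => (2 * (m : ℤ) + 2) ^ 2) c
  have h1 := Finset.sum_le_sum hleft
  have h2 := Finset.sum_le_sum hmid
  have h3 := Finset.sum_le_sum hright
  rw [hrefl] at h3
  rw [Finset.sum_const, card_range, nsmul_eq_mul] at h2
  rw [Finset.sum_range_add, Finset.sum_range_add] at hsum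
  have key : 2 * ((c : ℤ) + 1) * (2 * (c : ℤ) * (2 * c + 1) + 6 * ((d : ℤ) + 1) * (c + 1))
      ≤ 2 * ((c : ℤ) + 1) * (3 * n) := by
    push_cast at h1 h2 h3 hsum
    nlinarith
  have key2 := le_of_mul_le_mul_left key (by positivity)
  rw [hd]
  push_cast
  nlinarith

/-- **Run-length bound.**  If the circulant sign matrix with first row `h` is Hadamard and the
first row contains `L` cyclically consecutive equal signs then `3 * L ^ 2 ≤ 8 * n`. -/
theorem result (n : ℕ) [NeZero n] (h : ZMod n → ℤ) (hpm : ∀ j, h j = 1 ∨ h j = -1)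
    (hH : (Matrix.of fun i j : ZMod n => h (j - i)) *
        (Matrix.of fun i j : ZMod n => h (j - i)).transpose
      = (n : ℤ) • (1 : Matrix (ZMod n) (ZMod n) ℤ))
    (s : ZMod n) (L : ℕ) (hLn : L ≤ n)
    (hrun : ∀ j : ℕ, j < L → h (s + (j : ZMod n)) = h s) :
    3 * L ^ 2 ≤ 8 * n := by
  have hac : ∀ t : ZMod n, t ≠ 0 → ∑ j, h j * h (j + t) = 0 := by
    intro t ht
    have h0 := congrFun (congrFun hH 0) (-t)
    rw [Matrix.mul_apply] at h0
    simp only [Matrix.of_apply, Matrix.transpose_apply, Matrix.smul_apply, sub_zero,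
      sub_neg_eq_add] at h0
    rw [h0, Matrix.one_apply_ne (by
      intro h1
      apply ht
      exact neg_eq_zero.mp h1.symm)]
    simp
  have hn : 1 ≤ n := Nat.one_le_iff_ne_zero.mpr (NeZero.ne n)
  rcases Nat.lt_or_ge L 2 with hL | hL
  · have : L ^ 2 ≤ 1 := by
      have : L ≤ 1 := by omega
      nlinarith
    omega
  · obtain ⟨c, hc⟩ : ∃ c, (3 * L + 4) / 8 = c + 1 := ⟨(3 * L + 4) / 8 - 1, by omega⟩
    have hb : 2 * (c + 1) ≤ L := by omega
    have hm := main_ineq h hpm hac s L hLn hrun c hb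
    have r1 : (3 : ℤ) * L - 8 * ((c : ℤ) + 1) ≤ 4 := by
      have : 3 * L ≤ 8 * (c + 1) + 4 := by omega
      have h5 : ((3 * L : ℕ) : ℤ) ≤ ((8 * (c + 1) + 4 : ℕ) : ℤ) := by exact_mod_cast this
      push_cast at h5
      linarith
    have r2 : -4 ≤ (3 : ℤ) * L - 8 * ((c : ℤ) + 1) := by
      have : 8 * (c + 1) ≤ 3 * L + 4 := by omega
      have h5 : ((8 * (c + 1) : ℕ) : ℤ) ≤ ((3 * L + 4 : ℕ) : ℤ) := by exact_mod_cast this
      push_cast at h5
      linarith
    have r3 : ((3 : ℤ) * L - 8 * ((c : ℤ) + 1)) ^ 2 ≤ 16 := by nlinarith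
    have fin : (3 : ℤ) * (L : ℤ) ^ 2 ≤ 8 * n := by nlinarith
    exact_mod_cast fin

end Vale.Agent.Results.P033.RunLength
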